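import Vale.Agent.P302.Reduce

namespace Vale.Agent.Results.P302.Unbounded

open Vale.Agent.P302

/-- The modified integer round-up conjecture is false, and the additive integrality gap of the
configuration LP is unbounded, already for instances with all sizes larger than `1/4`. -/
theorem result :
    (¬ ∀ (n : ℕ) (a : Fin n → ℚ), IsInstance a → (OPT a : ℤ) ≤ ⌈LP a⌉ + 1) ∧
    (∀ c : ℕ, ∃ (n : ℕ) (a : Fin n → ℚ), IsInstance a ∧ (∀ i, 1 / 4 < a i) ∧
      LP a + (c : ℝ) < (OPT a : ℝ)) := by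
  refine ⟨fun h => ?_, exists_gap⟩
  obtain ⟨n, a, ha, -, hgap⟩ := exists_gap 2
  have h1 : ((OPT a : ℤ) : ℝ) ≤ ((⌈LP a⌉ + 1 : ℤ) : ℝ) := by exact_mod_cast h n a ha
  have h2 := Int.ceil_lt_add_one (LP a)
  push_cast at h1 hgap
  linarith

end Vale.Agent.Results.P302.Unbounded
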